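import Vale.Agent.P142.Main

open Metric Set Filter Complex MeasureTheory Real
open scoped Topology

namespace Vale.Agent.Results.P142.NineEighths

/-- The integral mean `M_t[f'](r)`. -/
noncomputable def M (f : ℂ → ℂ) (t r : ℝ) : ℝ :=
  1 / (2 * π) * ∫ θ in (-π)..π, ‖deriv f ((r : ℂ) * cexp ((θ : ℂ) * I))‖ ^ t

/-- The integral means spectrum `β_f(t)` of one function. -/
noncomputable def beta (f : ℂ → ℂ) (t : ℝ) : EReal :=
  limsup (fun r : ℝ => ((Real.log (M f t r) / Real.log (1 / (1 - r)) : ℝ) : EReal)) (𝓝[<] 1)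

/-- The class `S` of normalised univalent functions on the unit disc. -/
def ClassS : Set (ℂ → ℂ) :=
  {f | DifferentiableOn ℂ f (ball 0 1) ∧ InjOn f (ball 0 1) ∧ f 0 = 0 ∧ deriv f 0 = 1}

/-- The universal integral means spectrum `B_S(t)`. -/
noncomputable def BS (t : ℝ) : EReal := ⨆ f ∈ ClassS, beta f t

theorem result :
    BS (-2) ≤ ((9 / 8 : ℝ) : EReal) ∧
    ∀ (W : Set ℂ) (φ : ℂ → ℂ), IsOpen W → DifferentiableOn ℂ φ W → BijOn φ W (ball 0 1) →
      ∀ s : ℝ, 2 ≤ s → s < 34 / 9 → ∫⁻ z in W, ENNReal.ofReal (‖deriv φ z‖ ^ s) < ⊤ := by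
  refine ⟨iSup₂_le fun f hf => ?_, fun W φ hW hφ hb s h1 h2 =>
    Vale.Agent.P142.domain_finite hW hφ hb h1 h2⟩
  obtain ⟨C, hC0, hC⟩ := Vale.Agent.P142.mean_bound hf.1 hf.2.1
  have hM : ∀ r, M f (-2) r = circleAverage (fun z => ‖(deriv f z)⁻¹‖ ^ 2) 0 r := by
    intro r
    rw [Vale.Agent.P142.avg_eq_pi, M, one_div, smul_eq_mul]
    congr 2
    funext θ
    rw [Real.rpow_neg (norm_nonneg _), Real.rpow_two, norm_inv, inv_pow, circleMap, zero_add]
  have hL : Tendsto (fun r : ℝ => Real.log (1 / (1 - r))) (𝓝[<] 1) atTop := by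
    refine Real.tendsto_log_atTop.comp ?_
    simp only [one_div]
    refine tendsto_inv_nhdsGT_zero.comp (tendsto_nhdsWithin_iff.2 ⟨?_, ?_⟩)
    · refine tendsto_nhdsWithin_of_tendsto_nhds (Continuous.tendsto' (by fun_prop) _ _ (by simp))
    · filter_upwards [self_mem_nhdsWithin] with r hr
      exact sub_pos.2 (show r < 1 from hr)
  have hT : Tendsto (fun r : ℝ => ((Real.log C / Real.log (1 / (1 - r)) + 9 / 8 : ℝ) : EReal))
      (𝓝[<] 1) (𝓝 ((9 / 8 : ℝ) : EReal)) := by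
    refine EReal.tendsto_coe.2 ?_
    simpa using (hL.const_div_atTop (Real.log C)).add_const (9 / 8)
  rw [← hT.limsup_eq]
  refine limsup_le_limsup ?_
  filter_upwards [hL.eventually_gt_atTop 0, nhdsWithin_le_nhds (Ioi_mem_nhds one_pos),
    self_mem_nhdsWithin] with r h0 hr0 hr1
  have hr1' : r < 1 := hr1
  have h1r : 0 < 1 - r := by linarith
  have hp := Vale.Agent.P142.mean_pos hf.1 hf.2.1 hr0 hr1'
  have hb := hC r hr0 hr1'
  have hq : 0 < (1 - r) ^ (-(9 / 8) : ℝ) := by positivity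
  have hCp : 0 < C := (mul_pos_iff_of_pos_right hq).1 (hp.trans_le hb)
  have hlog := Real.log_le_log hp hb
  rw [Real.log_mul hCp.ne' hq.ne', Real.log_rpow h1r] at hlog
  rw [EReal.coe_le_coe_iff, hM, div_le_iff₀ h0, add_mul, div_mul_cancel₀ _ h0.ne', one_div,
    Real.log_inv]
  linarith

end Vale.Agent.Results.P142.NineEighths
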